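import Vale.Agent.P366.H896.L.Glue
import Vale.Agent.P366.H896.L.GlueB
import Vale.Agent.P366.H208.G.Pos
import Vale.Agent.P366.H707.L.StokesEq
import Vale.Agent.P366.H707.L.Stokes
import Vale.Agent.P366.H296.L.V9
import Vale.Agent.P366.H375.W.W6
import Vale.Agent.P366.H208.L.AFf
import Vale.Agent.P366.H474.L.C
import Vale.Agent.P366.H222.N.X0e
import Vale.Agent.P366.H222.N.X7
import Vale.Agent.P366.H745.N2d
import Vale.Agent.P366.H745.N3

/-! Kerr-Schild spacetimes with a null geodesic covector field: the Penrose inequality. -/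

open MeasureTheory Metric Filter Topology Set
open scoped ContDiff ENNReal

noncomputable section
namespace Vale.Agent.P366.KSL

open Vale.Agent.P366 (pd E flux sphI)
open Vale.Agent.P366.H353.N
open Vale.Agent.P366.Kerr (NullCone Psi pt sp indG indK sgn ksL ein IsKS FutTimelike DECatL IsGraph
  IsSliceL HasDEC)
open Vale.Agent.P366.KSN (Y dts sg)

variable {n : ℕ} {C : NullCone n} {l : Fin (n + 1) → E (n + 1) → ℝ} {V : E (n + 1) → ℝ}
  {f f₁ : E n → ℝ} {D : Stmt.Exterior n} {p : E (n + 1)} {x y : E n}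

/-- The constant future timelike vector `(e0 a, a)`. -/
def xi (a : Fin n → ℝ) (b : Fin (n + 1)) : ℝ := Fin.cons (α := fun _ => ℝ) (Shell.e0 a) a b

theorem e0_pos (a : Fin n → ℝ) : 0 < Shell.e0 a := by
  unfold Shell.e0
  apply Real.sqrt_pos.2
  have : 0 ≤ ∑ i, a i ^ 2 := Finset.sum_nonneg fun i _ => sq_nonneg _
  linarith

theorem ax_pos (a : Fin n → ℝ) (hx : ‖x‖ = 1) : 0 < Shell.e0 a + ∑ i, a i * x i := by
  have h1 : (∑ i, a i * x i) ^ 2 ≤ (∑ i, a i ^ 2) * ∑ i, x i ^ 2 :=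
    Finset.sum_mul_sq_le_sq_mul_sq _ _ _
  have hx2 : ∑ i, x i ^ 2 = 1 := D208.sum_sq hx
  rw [hx2, mul_one] at h1
  have h2 := Shell.e0_sq a
  have h3 := e0_pos a
  by_contra hneg
  push Not at hneg
  have h4 : Shell.e0 a ≤ -∑ i, a i * x i := by linarith
  have h5 : Shell.e0 a ^ 2 ≤ (∑ i, a i * x i) ^ 2 := by
    rw [← neg_sq (∑ i, a i * x i)]
    exact pow_le_pow_left₀ h3.le h4 2
  linarith

/-- points far out belong to the exterior -/
theorem far_mem (D : Stmt.Exterior n) : ∃ R, ∀ y : E n, R < ‖y‖ → 0 ≤ D.F y := by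
  obtain ⟨R, hR⟩ := D.dom.2.2.2
  exact ⟨R, fun y hy => (hR y hy).le⟩

theorem flux_lin {ι : Type*} [Fintype ι] {W : ι → Fin n → E n → ℝ} {r : ℝ} (hr : 0 < r) (c : ι → ℝ)
    (hW : ∀ b i, ∀ y : E n, ‖y‖ = r → ContinuousAt (W b i) y) :
    flux (fun i y => -∑ b, c b * W b i y) r = -∑ b, c b * flux (W b) r := by
  rw [H474.W.flux_SI]
  have e1 : SI (fun x => ∑ i, -∑ b, c b * W b i (r • x) * ((r • x) i / ‖r • x‖)) =
      -∑ b, c b * SI (fun x => ∑ i, W b i (r • x) * ((r • x) i / ‖r • x‖)) := by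
    have e2 : ∀ x : E n, ∑ i, -∑ b, c b * W b i (r • x) * ((r • x) i / ‖r • x‖) =
        -∑ b, c b * ∑ i, W b i (r • x) * ((r • x) i / ‖r • x‖) := by
      intro x
      rw [Finset.sum_neg_distrib, Finset.sum_comm]
      simp only [Finset.mul_sum, mul_assoc]
    simp only [e2]
    rw [SI_neg]
    congr 1
    unfold SI
    rw [integral_finsetSum]
    · exact Finset.sum_congr rfl fun b _ => integral_const_mul _ _
    · intro b _
      exact (int_sph (H474.W.flux_cont hr (hW b))).const_mul (c b)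
  have e3 : (fun x : E n => ∑ i, (fun i y => -∑ b, c b * W b i y) i (r • x) *
      ((r • x) i / ‖r • x‖)) =
      fun x => ∑ i, -∑ b, c b * W b i (r • x) * ((r • x) i / ‖r • x‖) := by
    funext x
    refine Finset.sum_congr rfl fun i _ => ?_
    simp only [neg_mul, Finset.sum_mul]
  rw [e3, e1, mul_neg, Finset.mul_sum]
  congr 1
  refine Finset.sum_congr rfl fun b _ => ?_
  rw [H474.W.flux_SI]
  ring

theorem Zf_congr {g g' : E n → ℝ} (h : g =ᶠ[𝓝 y] g') (b : Fin (n + 1)) (i : Fin n) :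
    Zf l V g b i y = Zf l V g' b i y := by
  unfold Zf
  have h1 : g y = g' y := h.eq_of_nhds
  have h2 : ∀ j, pd j g y = pd j g' y := fun j => by
    unfold Vale.Agent.P366.pd
    rw [h.fderiv_eq]
  simp only [h1, h2]

/-- The flux field of the vector `(e0 a, a)`. -/
def Fa (l : Fin (n + 1) → E (n + 1) → ℝ) (V : E (n + 1) → ℝ) (f : E n → ℝ) (a : Fin n → ℝ)
    (i : Fin n) (y : E n) : ℝ := -∑ b, xi a b * Zf l V f b i y

theorem Fa_smooth (hG : IsGraph C l V f D) (hy : 0 ≤ D.F y) (a : Fin n → ℝ) (i : Fin n) :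
    ContDiffAt ℝ ∞ (Fa l V f a i) y := by
  unfold Fa
  refine ContDiffAt.neg (ContDiffAt.sum fun b _ => ?_)
  exact contDiffAt_const.mul (Z_smooth hG hy b i)

theorem div_Fa (dom : ∀ y, 0 ≤ D.F y ↔ ∃ x, x ≠ 0 ∧ C.U x ≤ ‖x‖ ∧ Psi C.H x = y)
    (hD : HasDEC C l V f f₁ D) (hy : 0 ≤ D.F y) (a : Fin n → ℝ) :
    0 ≤ ∑ i, pd i (Fa l V f₁ a i) y := by
  have e1 : ∀ i, pd i (Fa l V f₁ a i) y = -∑ b, xi a b * pd i (Zf l V f₁ b i) y := by
    intro i
    have hd : ∀ b, DifferentiableAt ℝ (Zf l V f₁ b i) y := fun b =>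
      (Z_smooth hD.toIsGraph hy b i).differentiableAt (by simp)
    unfold Vale.Agent.P366.pd
    have h1 : HasFDerivAt (Fa l V f₁ a i) (-∑ b, xi a b • fderiv ℝ (Zf l V f₁ b i) y) y := by
      unfold Fa
      exact (HasFDerivAt.fun_sum fun b _ => (hd b).hasFDerivAt.const_mul (xi a b)).neg
    rw [h1.fderiv]
    simp
  simp only [e1]
  rw [Finset.sum_neg_distrib, Finset.sum_comm]
  simp only [← Finset.mul_sum]
  refine div_Zpos dom hD ?_ (e0_pos a).le hy
  simp only [xi, Fin.cons_succ, Fin.cons_zero]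
  rw [Shell.e0_sq]
  linarith

/-- The inequality in every frame. -/
theorem frame [Fact (3 ≤ n)] (hS : IsSliceL C l V f D) (hD : HasDEC C l V f f₁ D) (hAF : D.IsAF)
    (hT : D.Trapped) {m : ℝ} {P : Fin n → ℝ} (hm : D.IsEnergy m) (hP : D.IsMomentum P)
    (a : Fin n → ℝ) :
    1 / 2 * (SI C.toDat.dt / om n) ^ (((n : ℝ) - 2) / ((n : ℝ) - 1)) ≤
      Shell.e0 a * m + ∑ i, a i * P i := by
  have h3 := Fact.out (p := 3 ≤ n)
  have hn : (3 : ℝ) ≤ (n : ℝ) := by exact_mod_cast h3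
  have hom : 0 < om n := om_pos
  have h4 := af4 hS hAF
  obtain ⟨T, hTA, hTb, -⟩ := toTen C.toDat
  -- the field
  set F : Fin n → E n → ℝ := Fa l V f₁ a with hF
  have hlim : Tendsto (flux F) atTop (𝓝 (((n : ℝ) - 1) * om n *
      (Shell.e0 a * m + ∑ i, a i * P i))) := by
    have h0 := H474.L.flux_zero hS h4 hm
    have hj := fun j => H474.L.flux_succ hS h4 hP j
    have hsum : Tendsto (fun r => -∑ b, xi a b * flux (Zf l V f b) r) atTop
        (𝓝 (-∑ b, xi a b * (Fin.cons (α := fun _ => ℝ) (-(((n : ℝ) - 1) * om n * m))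
          (fun j => -(((n : ℝ) - 1) * om n * P j)) b : ℝ))) := by
      refine (tendsto_finsetSum _ fun b _ => ?_).neg
      refine Tendsto.const_mul _ ?_
      refine Fin.cases ?_ (fun j => ?_) b
      · simpa only [Fin.cons_zero] using h0
      · simpa only [Fin.cons_succ] using hj j
    have elim : -∑ b, xi a b * (Fin.cons (α := fun _ => ℝ) (-(((n : ℝ) - 1) * om n * m))
          (fun j => -(((n : ℝ) - 1) * om n * P j)) b : ℝ) =
        ((n : ℝ) - 1) * om n * (Shell.e0 a * m + ∑ i, a i * P i) := by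
      rw [Fin.sum_univ_succ]
      simp only [xi, Fin.cons_zero, Fin.cons_succ]
      have e2 : ∀ i : Fin n, a i * -(((n : ℝ) - 1) * om n * P i) =
          -(((n : ℝ) - 1) * om n) * (a i * P i) := fun i => by ring
      simp only [e2, ← Finset.mul_sum]
      ring
    rw [elim] at hsum
    refine hsum.congr' ?_
    obtain ⟨R1, hR1⟩ := far_mem D
    obtain ⟨R2, hR2⟩ := hD.far
    filter_upwards [eventually_gt_atTop (max (max R1 R2) 0)] with r hr
    have hr0 : 0 < r := (le_max_right _ _).trans_lt hr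
    have hrR : max R1 R2 < r := (le_max_left _ _).trans_lt hr
    have hrR1 : R1 < r := (le_max_left _ _).trans_lt hrR
    have hrR2 : R2 < r := (le_max_right _ _).trans_lt hrR
    rw [← flux_lin hr0 (xi a) (W := Zf l V f) fun b i y hy =>
      (Z_smooth hS.toIsGraph (hR1 y (by rw [hy]; exact hrR1)) b i).continuousAt]
    refine H474.W.flux_congr hr0 fun i y hy => ?_
    show -∑ b, xi a b * Zf l V f b i y = -∑ b, xi a b * Zf l V f₁ b i y
    congr 1
    refine Finset.sum_congr rfl fun b _ => ?_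
    congr 1
    refine Zf_congr ?_ b i
    have : ∀ᶠ z in 𝓝 y, R2 < ‖z‖ := continuous_norm.continuousAt.eventually
      (lt_mem_nhds (show R2 < ‖y‖ by rw [hy]; exact hrR2))
    filter_upwards [this] with z hz
    exact (hR2 z hz).symm
  have hst := stokes (D := D) (C := C) hS.dom hS.bdF (F := F)
    (fun i y hy => Fa_smooth hD.toIsGraph hy a i)
    (fun y hy => div_Fa hS.dom hD hy a) hlim
  -- the boundary term
  set w : E n → ℝ := fun x => V (pt (- C.U x) (Y C.H x (C.U x))) *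
    l 0 (pt (- C.U x) (Y C.H x (C.U x))) ^ 2 * sg C.H (C.U x) x with hw
  have hmem : ∀ x : E n, ‖x‖ = 1 → 0 ≤ D.F (Y C.H x (C.U x)) := by
    intro x hx
    have hU := C.pos x (ne_zero_of_one hx)
    rw [← KSN.Y_eq C hx hU, hS.dom]
    refine ⟨C.U x • x, smul_ne_zero hU.ne' (ne_zero_of_one hx), ?_, rfl⟩
    rw [KSN.U_smul C (ne_zero_of_one hx) hU, KSN.norm_smul_unit hx hU.le]
  have hbd : SI (fun x => dts C.H (C.U x) x *
      ∑ i, F i (Y C.H x (C.U x)) * (x i - C.toDat.b x i)) =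
      SI (fun x => 1 / 2 * w x * (Shell.e0 a + ∑ i, a i * x i)) := by
    refine SI_congr fun x hx => ?_
    have e1 : dts C.H (C.U x) x * ∑ i, F i (Y C.H x (C.U x)) * (x i - C.toDat.b x i) =
        -∑ b, xi a b * (dts C.H (C.U x) x *
          ∑ i, Zf l V f₁ b i (Y C.H x (C.U x)) * (x i - C.toDat.b x i)) := by
      simp only [hF, Fa, Finset.mul_sum, Finset.sum_mul, neg_mul, mul_neg,
        Finset.sum_neg_distrib]
      rw [Finset.sum_comm]
      congr 1
      exact Finset.sum_congr rfl fun b _ => Finset.sum_congr rfl fun i _ => by ring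
    rw [e1]
    simp only [Z_bdrD hS.dom hD hS.nor hx]
    rw [Fin.sum_univ_succ]
    simp only [xi, lx, Fin.cons_zero, Fin.cons_succ, hw]
    have e2 : ∀ i : Fin n, a i * (-(1 / 2 * (V (pt (- C.U x) (Y C.H x (C.U x))) *
        l 0 (pt (- C.U x) (Y C.H x (C.U x))) ^ 2 * sg C.H (C.U x) x)) * x i) =
        -(1 / 2 * (V (pt (- C.U x) (Y C.H x (C.U x))) *
        l 0 (pt (- C.U x) (Y C.H x (C.U x))) ^ 2 * sg C.H (C.U x) x)) * (a i * x i) :=
      fun i => by ring
    simp only [e2, ← Finset.mul_sum]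
    ring
  rw [hbd] at hst
  -- the function `q`
  set q : E n → ℝ := fun x => (1 - ∑ i, T.b x i ^ 2) * H353.N.tr (T.A x) -
      2 * (∑ i, ∑ j, T.A x i j * pd i (fun y => T.b y j) x) + 2 * qf (T.A x) (T.b x) (T.b x)
    with hq
  have hqw : ∀ x : E n, ‖x‖ = 1 → q x ≤ w x := fun x hx => trapped hS hT hTA hTb hx
  have hqS : Sm q := by
    have hb2 : Sm fun x => ∑ i, T.b x i ^ 2 := Sm.sum _ fun i => (T.smb i).pow 2
    have htr : Sm fun x => H353.N.tr (T.A x) := Sm.sum _ fun i => T.smA i i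
    have h2 : Sm fun x => ∑ i, ∑ j, T.A x i j * pd i (fun y => T.b y j) x :=
      Sm.sum _ fun i => Sm.sum _ fun j => (T.smA i j).mul ((T.smb j).pd i)
    have h5 : Sm fun x => qf (T.A x) (T.b x) (T.b x) :=
      Sm.sum _ fun i => Sm.sum _ fun j => ((T.smA i j).mul (T.smb i)).mul (T.smb j)
    exact ((((Sm.const 1).sub hb2).mul htr).sub ((Sm.const 2).mul h2)).add ((Sm.const 2).mul h5)
  have hwc : ContinuousOn w (sphere (0 : E n) 1) := by
    have hpt : ∀ x : E n, ‖x‖ = 1 →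
        ContinuousAt (fun x => pt (- C.U x) (Y C.H x (C.U x))) x := fun x hx =>
      (KSN.pt_comp ((KSN.smU C).neg x (ne_zero_of_one hx))
        (KSN.Y_comp C (KSN.smU C) (ne_zero_of_one hx))).continuousAt
    have hks : ∀ x : E n, ‖x‖ = 1 → IsKS l V (pt (- C.U x) (Y C.H x (C.U x))) := by
      intro x hx
      have hU := C.pos x (ne_zero_of_one hx)
      have h6 := hS.bdr (C.U x • x) (smul_ne_zero hU.ne' (ne_zero_of_one hx)) (by
        rw [KSN.U_smul C (ne_zero_of_one hx) hU, KSN.norm_smul_unit hx hU.le])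
      rw [KSN.Y_eq C hx hU, KSN.U_smul C (ne_zero_of_one hx) hU] at h6
      rw [← h6]
      exact hS.ks _ (hmem x hx)
    refine ContinuousOn.mul (ContinuousOn.mul ?_ (ContinuousOn.pow ?_ 2))
      (KSN.sg_cont C (KSN.smU C))
    · intro x hx
      have hx1 : ‖x‖ = 1 := by simpa using hx
      exact (ContinuousAt.comp (f := fun x => pt (- C.U x) (Y C.H x (C.U x))) (x := x)
        (hks x hx1).smV.continuousAt (hpt x hx1)).continuousWithinAt
    · intro x hx
      have hx1 : ‖x‖ = 1 := by simpa using hx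
      exact (ContinuousAt.comp (f := fun x => pt (- C.U x) (Y C.H x (C.U x))) (x := x)
        ((hks x hx1).sml 0).continuousAt (hpt x hx1)).continuousWithinAt
  have hax : ContinuousOn (fun x : E n => Shell.e0 a + ∑ i, a i * x i) (sphere (0 : E n) 1) :=
    ((Sm.const (Shell.e0 a)).add (Sm.sum _ fun i => (Sm.const (a i)).mul (Sm.coord i))).contOn
  have h7 : SI (fun x => q x * (Shell.e0 a + ∑ i, a i * x i)) ≤
      SI (fun x => w x * (Shell.e0 a + ∑ i, a i * x i)) :=
    SI_mono (hqS.contOn.mul hax) (hwc.mul hax) fun x hx =>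
      mul_le_mul_of_nonneg_right (hqw x hx) (ax_pos a hx).le
  have h8 : SI (fun x => q x * (Shell.e0 a + ∑ i, a i * x i)) =
      Shell.e0 a * SI q + ∑ i, a i * SI (fun x => q x * x i) := by
    have e1 : ∀ x : E n, q x * (Shell.e0 a + ∑ i, a i * x i) =
        Shell.e0 a * q x + ∑ i, a i * (q x * x i) := by
      intro x
      rw [mul_add, Finset.mul_sum, mul_comm]
      congr 1
      exact Finset.sum_congr rfl fun i _ => by ring
    simp only [e1]
    have h9 : ∀ i, Sm fun x : E n => q x * x i := fun i => hqS.mul (Sm.coord i)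
    rw [SI_add ((Sm.const (Shell.e0 a)).mul hqS).contOn
      (Sm.sum _ fun i => (Sm.const (a i)).mul (h9 i)).contOn, SI_cmul]
    congr 1
    unfold SI
    rw [integral_finsetSum]
    · exact Finset.sum_congr rfl fun i _ => integral_const_mul _ _
    · intro i _
      exact (int_sph (h9 i).contOn).const_mul (a i)
  have h9 : SI (fun x => 1 / 2 * w x * (Shell.e0 a + ∑ i, a i * x i)) =
      1 / 2 * SI (fun x => w x * (Shell.e0 a + ∑ i, a i * x i)) := by
    rw [← SI_cmul]
    exact SI_congr fun x _ => by ring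
  rw [h9] at hst
  have h10 := Shell.shell_frame C.toDat T hTA hTb (q := q) (fun x _ => rfl) a
  refine h10.trans ?_
  rw [← h8, div_le_iff₀ (by
    have : 0 < (n : ℝ) - 1 := by linarith
    positivity)]
  linarith

/-- The Penrose inequality. -/
theorem final [Fact (3 ≤ n)] (hS : IsSliceL C l V f D) (hD : HasDEC C l V f f₁ D) (hAF : D.IsAF)
    (hT : D.Trapped) {m : ℝ} {P : Fin n → ℝ} (hm : D.IsEnergy m) (hP : D.IsMomentum P) :
    D.Amin ≠ ⊤ ∧ √(∑ i, P i ^ 2) < m ∧
      (D.Amin.toReal / Stmt.omega n) ^ (((n : ℝ) - 2) / ((n : ℝ) - 1)) / 2 ≤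
        √(m ^ 2 - ∑ i, P i ^ 2) := by
  have h3 := Fact.out (p := 3 ≤ n)
  have hn : (3 : ℝ) ≤ (n : ℝ) := by exact_mod_cast h3
  have hom : 0 < om n := om_pos
  have hdt : SI C.toDat.dt = SI (fun x => dts C.H (C.U x) x) :=
    SI_congr fun x hx => X3.dt_one C.toDat hx
  have hA : 0 < SI C.toDat.dt := by
    rw [hdt]
    exact KSN.SI_pos (KSN.dts_cont C (KSN.smU C)) fun x hx => KSN.dts_pos C hx le_rfl
  have h6 := area_le hS
  rw [← hdt] at h6
  have htop : D.Amin ≠ ⊤ := ne_top_of_le_ne_top ENNReal.ofReal_ne_top h6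
  have hle : D.Amin.toReal ≤ SI C.toDat.dt := by
    have := (ENNReal.toReal_le_toReal htop ENNReal.ofReal_ne_top).2 h6
    rwa [ENNReal.toReal_ofReal hA.le] at this
  have hmpos : 0 < 1 / 2 * (SI C.toDat.dt / om n) ^ (((n : ℝ) - 2) / ((n : ℝ) - 1)) := by
    have : 0 < SI C.toDat.dt / om n := div_pos hA hom
    positivity
  obtain ⟨h1, h2⟩ := Shell.mass (m := 1 / 2 * (SI C.toDat.dt / om n) ^ (((n : ℝ) - 2) / ((n : ℝ) - 1)))
    (e := m) (p := P) hmpos (fun a => by
      have h := frame hS hD hAF hT hm hP (fun i => - a i)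
      have e1 : Shell.e0 (fun i => - a i) = Shell.e0 a := by
        unfold Shell.e0
        congr 2
        exact Finset.sum_congr rfl fun i _ => by ring
      have e2 : ∑ i, - a i * P i = - ∑ i, a i * P i := by
        rw [← Finset.sum_neg_distrib]
        exact Finset.sum_congr rfl fun i _ => by ring
      rw [e1, e2] at h
      linarith)
  refine ⟨htop, h1, le_trans ?_ h2⟩
  rw [KSN.om_eq]
  have h4 : (D.Amin.toReal / om n) ^ (((n : ℝ) - 2) / ((n : ℝ) - 1)) ≤
      (SI C.toDat.dt / om n) ^ (((n : ℝ) - 2) / ((n : ℝ) - 1)) := by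
    refine Real.rpow_le_rpow (div_nonneg ENNReal.toReal_nonneg hom.le) (by gcongr) ?_
    have h5 : 0 < (n : ℝ) - 1 := by linarith
    exact div_nonneg (by linarith) h5.le
  linarith

end Vale.Agent.P366.KSL
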