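import Vale.Agent.P366.H222.L.EqB
import Vale.Agent.P366.H707.L.Eq
import Vale.Agent.P366.H296.Q.Ode
import Vale.Agent.P366.H296.Q.Cone

/-! The equality case: slices of the Schwarzschild-Tangherlini spacetime. -/

open MeasureTheory Metric Filter Topology Set
open scoped ContDiff ENNReal

noncomputable section
namespace Vale.Agent.P366.KSL

open Vale.Agent.P366 (pd E flux)
open Vale.Agent.P366.H353.N
open Vale.Agent.P366.Kerr (NullCone Psi pt sp indG indK sgn ksL ksG ein nul IsKS FutTimelike DECatL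
  IsGraph IsSliceL HasDEC IsGradient schw IsSchwSlice)
open Vale.Agent.P366.KSN (Y dts sg OO)

variable {n : ℕ} {C : NullCone n} {l : Fin (n + 1) → E (n + 1) → ℝ} {V : E (n + 1) → ℝ}
  {f lam : E n → ℝ} {D : Stmt.Exterior n}

theorem mem_OO_of (hS : IsSliceL C l V f D) {y : E n} (hy : 0 < D.F y) : y ∈ OO C := by
  obtain ⟨x, t, hx, ht, h⟩ := (pos_iff hS.dom hS.bdF).1 hy
  exact KSN.mem_OO.2 ⟨x, _, hx, by linarith, h⟩

/-- Equality in the Penrose inequality: a slice of the Schwarzschild-Tangherlini spacetime. -/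
theorem schwarz [Fact (3 ≤ n)] (hS : IsSliceL C l V f D) (hL : IsGradient C lam l f D)
    (hD : HasDEC C l V f f D) (hAF : D.IsAF) (hT : D.Trapped) {m : ℝ} {P : Fin n → ℝ}
    (hm : D.IsEnergy m) (hP : D.IsMomentum P)
    (heq : (D.Amin.toReal / Stmt.omega n) ^ (((n : ℝ) - 2) / ((n : ℝ) - 1)) / 2 =
      √(m ^ 2 - ∑ i, P i ^ 2)) : ∃ c r₀, IsSchwSlice c r₀ f D := by
  have h3 := Fact.out (p := 3 ≤ n)
  obtain ⟨⟨xi, hxi, hxi0, hz⟩, k, c, hH⟩ := eq_cone hS hD hAF hT hm hP heq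
  have hk : ∀ y, 0 ≤ D.F y → IsKSg l V (pt (f y) y) := fun y hy =>
    ksg_of_grad hL hy (hS.ks y hy)
  have hG : ∀ y, 0 ≤ D.F y → ∀ a b, Gm l V a b (pt (f y) y) = 0 := fun y hy a b =>
    Gm_zero_slice hS hD (hk y hy) hy hxi hxi0 (hz y hy) a b
  obtain ⟨M, hM⟩ := EqK.V_OO hS hL hH hG
  have hV : ∀ y, 0 ≤ D.F y → V (pt (f y) y) = M / ‖y - c‖ ^ (n - 2) := fun y hy =>
    EqK.V_all hS hH hM hy
  have hmem : ∀ x : E n, ‖x‖ = 1 → 0 ≤ D.F (Y C.H x (C.U x)) := fun x hx =>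
    (dom_iff hS.dom).2 ⟨x, _, hx, le_rfl, rfl⟩
  have hfS : ∀ x : E n, ‖x‖ = 1 → f (Y C.H x (C.U x)) = - C.U x := by
    intro x hx
    have hU := C.pos x (ne_zero_of_one hx)
    have h6 := hS.bdr (C.U x • x) (smul_ne_zero hU.ne' (ne_zero_of_one hx)) (by
      rw [KSN.U_smul C (ne_zero_of_one hx) hU, KSN.norm_smul_unit hx hU.le])
    rwa [KSN.Y_eq C hx hU, KSN.U_smul C (ne_zero_of_one hx) hU] at h6
  have hl0 : ∀ x : E n, ‖x‖ = 1 → l 0 (pt (- C.U x) (Y C.H x (C.U x))) = 1 := fun x hx => by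
    rw [← hfS x hx]
    exact EqK.l_zero hL (hmem x hx)
  have hP0 : P = 0 := cone_P hS hk hAF hH hG hl0 hV hP
  obtain ⟨u, hu0, hU, hVS⟩ := eq_zero hS hD hAF hT hm hP heq hP0
  -- a unit vector
  set x0 : E n := EuclideanSpace.single (⟨0, by omega⟩ : Fin n) (1 : ℝ) with hx0
  have hx1 : ‖x0‖ = 1 := by simp [hx0]
  have hku : 0 < k + u := by
    have := EqK.k_pos hH hx1
    rwa [hU x0 (ne_zero_of_one hx1)] at this
  have hMr : M = (k + u) ^ (n - 2) := by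
    have h1 := hVS x0 hx1
    rw [hl0 x0 hx1, one_pow, mul_one, ← hfS x0 hx1, hV _ (hmem x0 hx1),
      EqK.norm_cone hH hx1 le_rfl, hU x0 (ne_zero_of_one hx1),
      div_eq_one_iff_eq (pow_ne_zero _ hku.ne')] at h1
    exact h1
  have hdV : ∀ y, 0 ≤ D.F y → pd 0 V (pt (f y) y) = 0 ∧ ∀ i : Fin n, pd i.succ V (pt (f y) y) =
      -((n - 2) * (V (pt (f y) y) / ‖y - c‖) * Rig.nn c i y) := by
    obtain ⟨M', hM'⟩ := cone_ode hS hH fun y hy => EqK.dV_OO hS hL hH hG (mem_OO_of hS hy)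
    exact fun y hy => (hM' y hy).2
  have hind : ∀ y, 0 ≤ D.F y → ∀ i j, indG (ksL l V) f y i j = indG (schw c (k + u)) f y i j ∧
      indK (ksL l V) f y i j = indK (schw c (k + u)) f y i j := fun y hy i j =>
    schw_ind hS.dom hL hH hku (hS.ks y hy).smV (by rw [hV y hy, hMr]) (hdV y hy).1 (hdV y hy).2
      hy i j
  refine ⟨c, k + u, hku, EqK.dom_schw hS hH hU hku, fun y hy i j => ?_, fun y hy i j => ?_⟩
  · rw [hS.met y hy i j]
    exact (hind y hy i j).1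
  · rw [hS.sff y hy i j]
    exact (hind y hy i j).2

end Vale.Agent.P366.KSL
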