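import Vale.Agent.P366.Kerr.DefsE
import Vale.Agent.P366.H222.L.Asm
import Vale.Agent.P366.H707.L.RigL
import Vale.Agent.P366.H375.W.Jet
import Vale.Agent.P366.H296.Q.Lin
import Vale.Agent.P366.H208.G.Grad

/-! The equality case: round null cones. -/

open MeasureTheory Metric Filter Topology Set
open scoped ContDiff ENNReal

noncomputable section
namespace Vale.Agent.P366.KSL.EqK

open Vale.Agent.P366 (pd E flux)
open Vale.Agent.P366.H353.N
open Vale.Agent.P366.Kerr (NullCone Psi pt sp indG indK sgn ksL ksG ein nul IsKS FutTimelike DECatL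
  IsGraph IsSliceL HasDEC IsGradient schw IsSchwSlice)
open Vale.Agent.P366.KSN (Y dts sg OO mem_OO isOpen_OO posU' U_smul Y_eq norm_smul_unit exists_unit
  ray_closed Y_cont)
open Vale.Agent.P366.KSN.X5 (DP cdd cd_pd)
open Vale.Agent.P366.KSL.Rig (nn lc gv gd)

variable {n : ℕ} {C : NullCone n} {l : Fin (n + 1) → E (n + 1) → ℝ} {V : E (n + 1) → ℝ}
  {f lam : E n → ℝ} {D : Stmt.Exterior n} {p : E (n + 1)} {x y c : E n} {s k : ℝ}

/-! ### the cone -/

theorem dp_H (hH : ∀ x, x ≠ 0 → C.H x = k * ‖x‖ + ∑ i, c i * x i) (hx : x ≠ 0) (i : Fin n) :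
    pd i C.H x = k * (x i / ‖x‖) + c i := by
  have h1 : C.H =ᶠ[𝓝 x] fun x => k * ‖x‖ + ∑ i, c i * x i := by
    filter_upwards [nhds_ne hx] with z hz using hH z hz
  rw [Vale.Agent.P366.pd_congr h1 i]
  have hn : DP i (fun x : E n => ‖x‖) (x i / ‖x‖) x :=
    ⟨(contDiffAt_norm ℝ hx (n := 1)).differentiableAt (by simp), Vale.Agent.P366.pd_norm hx i⟩
  have hc : ∀ j : Fin n, DP i (fun x : E n => x j) (kd i j) x := fun j =>
    ⟨((Sm.coord j).diff hx), pd_coord' i j⟩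
  have h2 := (hn.cmul k).add (DP.sum Finset.univ fun j => (hc j).cmul (c j))
  rw [h2.2]
  congr 1
  have : ∀ j, c j * kd i j = kd i j * c j := fun j => mul_comm _ _
  simp only [this, KSN.sum_kd_mul]

theorem Y_cone (hH : ∀ x, x ≠ 0 → C.H x = k * ‖x‖ + ∑ i, c i * x i) (hx : ‖x‖ = 1) (s : ℝ) :
    Y C.H x s = c + (k + s) • x := by
  ext i
  rw [KSN.Y_apply, dp_H hH (ne_zero_of_one hx), hx]
  simp
  ring

theorem hs_H (hH : ∀ x, x ≠ 0 → C.H x = k * ‖x‖ + ∑ i, c i * x i) (hx : ‖x‖ = 1) (i j : Fin n) :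
    H353.N.hs C.H i j x = k * (kd i j - x i * x j) := by
  have hx0 := ne_zero_of_one hx
  have h1 : pd j C.H =ᶠ[𝓝 x] fun x => k * (x j / ‖x‖) + c j := by
    filter_upwards [nhds_ne hx0] with z hz using dp_H hH hz j
  show pd i (pd j C.H) x = _
  rw [Vale.Agent.P366.pd_congr h1 i]
  have h0 : DP i (fun x : E n => x j / ‖x‖) (pd i (fun x : E n => x j / ‖x‖) x) x :=
    DP.of ((Vale.Agent.P366.contDiffAt_Nc (m := 1) j hx0).differentiableAt (by norm_num))
  have h2 := (h0.cmul k).add (DP.const (k := i) (y := x) (c j))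
  rw [h2.2, KSN.pd_coord_div_norm hx0 j i, hx, KSN.kd_comm i j]
  ring

/-- a nonzero vector orthogonal to `x` -/
theorem exists_perp (h2 : 2 ≤ n) (x : E n) : ∃ v : Fin n → ℝ, v ≠ 0 ∧ ∑ i, x i * v i = 0 := by
  set a : Fin n := ⟨0, by omega⟩
  set b : Fin n := ⟨1, by omega⟩
  have hab : a ≠ b := by
    intro h
    have := congrArg Fin.val h
    simp [a, b] at this
  by_cases h0 : x a = 0
  · refine ⟨Pi.single a 1, ?_, ?_⟩
    · intro h
      have := congrFun h a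
      simp at this
    · simp [Pi.single_apply, h0]
  · refine ⟨Pi.single a (x b) - Pi.single b (x a), ?_, ?_⟩
    · intro h
      have := congrFun h b
      simp [hab.symm] at this
      exact h0 this
    · simp only [Pi.sub_apply, Pi.single_apply, mul_sub, Finset.sum_sub_distrib]
      simp
      ring

theorem k_pos [Fact (3 ≤ n)] (hH : ∀ x, x ≠ 0 → C.H x = k * ‖x‖ + ∑ i, c i * x i) (hx : ‖x‖ = 1) :
    0 < k + C.U x := by
  have h3 := Fact.out (p := 3 ≤ n)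
  obtain ⟨v, hv0, hv⟩ := exists_perp (by omega) x
  have h := KSN.posC C hx v hv hv0
  have hq : qf (fun i j => H353.N.hs C.H i j x) v v = k * ∑ i, v i ^ 2 := by
    unfold qf
    simp only [hs_H hH hx]
    have e : ∀ i, ∑ j, k * (kd i j - x i * x j) * v i * v j =
        k * (v i * (∑ j, kd i j * v j) - v i * x i * ∑ j, x j * v j) := by
      intro i
      rw [Finset.mul_sum, Finset.mul_sum, ← Finset.sum_sub_distrib, Finset.mul_sum]
      exact Finset.sum_congr rfl fun j _ => by ring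
    simp only [e, hv, mul_zero, sub_zero, KSN.sum_kd_mul]
    rw [Finset.mul_sum]
    exact Finset.sum_congr rfl fun j _ => by ring
  rw [hq, ← add_mul] at h
  have h4 : 0 < ∑ i, v i ^ 2 := by
    obtain ⟨i, hi⟩ := Function.ne_iff.1 hv0
    have hi' : v i ≠ 0 := hi
    exact Finset.sum_pos' (fun j _ => sq_nonneg _) ⟨i, Finset.mem_univ _, by positivity⟩
  exact pos_of_mul_pos_left h h4.le

theorem norm_cone [Fact (3 ≤ n)] (hH : ∀ x, x ≠ 0 → C.H x = k * ‖x‖ + ∑ i, c i * x i)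
    (hx : ‖x‖ = 1) (hs : C.U x ≤ s) : ‖Y C.H x s - c‖ = k + s := by
  rw [Y_cone hH hx, add_sub_cancel_left, norm_smul, hx, mul_one, Real.norm_eq_abs,
    abs_of_pos (by linarith [k_pos hH hx])]

theorem ne_c [Fact (3 ≤ n)] (hH : ∀ x, x ≠ 0 → C.H x = k * ‖x‖ + ∑ i, c i * x i)
    (hx : ‖x‖ = 1) (hs : C.U x ≤ s) : Y C.H x s ≠ c := by
  intro h
  have h1 := norm_cone hH hx hs
  rw [h, sub_self, norm_zero] at h1
  linarith [k_pos hH hx]

/-! ### connectedness and constancy -/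

theorem OO_preconn [Fact (3 ≤ n)] (C : NullCone n) : IsPreconnected (OO C) := by
  have h3 := Fact.out (p := 3 ≤ n)
  have hr : 1 < Module.rank ℝ (E n) := by
    rw [← Module.finrank_eq_rank, finrank_euclideanSpace, Fintype.card_fin]
    exact_mod_cast (show 1 < n by omega)
  have hsph : IsPreconnected (sphere (0 : E n) 1) := isPreconnected_sphere hr 0 1
  have hprod : IsPreconnected ((Ioi (0:ℝ)) ×ˢ (sphere (0 : E n) 1)) :=
    isPreconnected_Ioi.prod hsph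
  have himg : OO C = (fun p : ℝ × E n => Y C.H p.2 (C.U p.2 + p.1)) ''
      ((Ioi (0:ℝ)) ×ˢ (sphere (0 : E n) 1)) := by
    ext y
    rw [mem_OO]
    constructor
    · rintro ⟨x, s, hx, hs, rfl⟩
      refine ⟨(s - C.U x, x), ⟨by simp [hs], by simp [hx]⟩, ?_⟩
      simp
    · rintro ⟨⟨t, x⟩, ⟨ht, hx⟩, rfl⟩
      simp only [mem_Ioi] at ht
      simp only [mem_sphere_iff_norm, sub_zero] at hx
      exact ⟨x, C.U x + t, hx, by simpa using ht, rfl⟩
  rw [himg]
  refine hprod.image _ ?_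
  have h1 : ContinuousOn (fun p : ℝ × E n =>
      (WithLp.toLp 2 fun i => pd i C.H p.2 + (C.U p.2 + p.1) * p.2 i : E n))
      ((Ioi (0:ℝ)) ×ˢ (sphere (0 : E n) 1)) := by
    refine (PiLp.continuous_toLp 2 _).comp_continuousOn ?_
    refine continuousOn_pi.2 fun i => ?_
    have hsn : ContinuousOn (Prod.snd : ℝ × E n → E n) ((Ioi (0:ℝ)) ×ˢ (sphere (0 : E n) 1)) :=
      continuous_snd.continuousOn
    have hmaps : MapsTo (Prod.snd : ℝ × E n → E n) ((Ioi (0:ℝ)) ×ˢ (sphere (0 : E n) 1))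
      (sphere (0 : E n) 1) := fun p hp => hp.2
    have hA : ContinuousOn (fun p : ℝ × E n => pd i C.H p.2) ((Ioi (0:ℝ)) ×ˢ sphere (0 : E n) 1) :=
      (((KSN.smH C).pd i).contOn).comp hsn hmaps
    have hB : ContinuousOn (fun p : ℝ × E n => C.U p.2) ((Ioi (0:ℝ)) ×ˢ sphere (0 : E n) 1) :=
      ((KSN.smU C).contOn).comp hsn hmaps
    have hC : ContinuousOn (fun p : ℝ × E n => p.2 i) ((Ioi (0:ℝ)) ×ˢ sphere (0 : E n) 1) :=
      ((Sm.coord i).contOn).comp hsn hmaps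
    exact hA.add ((hB.add continuous_fst.continuousOn).mul hC)
  exact h1

theorem fderiv_zero {g : E n → ℝ} (h : ∀ i, pd i g y = 0) : fderiv ℝ g y = 0 := by
  ext v
  rw [Vale.Agent.P366.fderiv_eq_sum_pd]
  simp [h]

theorem const_OO [Fact (3 ≤ n)] (C : NullCone n) {g : E n → ℝ}
    (hg : ∀ y ∈ OO C, DifferentiableAt ℝ g y) (h : ∀ y ∈ OO C, ∀ i, pd i g y = 0) :
    ∃ M : ℝ, ∀ y ∈ OO C, g y = M := by
  by_cases hne : (OO C).Nonempty
  · obtain ⟨z, hz⟩ := hne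
    refine ⟨g z, fun y hy => ?_⟩
    exact (isOpen_OO C).is_const_of_fderiv_eq_zero (OO_preconn C)
      (fun w hw => (hg w hw).differentiableWithinAt) (fun w hw => fderiv_zero (h w hw)) hy hz
  · exact ⟨0, fun y hy => absurd ⟨y, hy⟩ hne⟩

/-- the function of the distance -/
theorem const_V [Fact (3 ≤ n)] (hc : ∀ y ∈ OO C, y ≠ c)
    (hf : ∀ y ∈ OO C, ContDiffAt ℝ ∞ f y) (hV : ∀ y ∈ OO C, ContDiffAt ℝ ∞ V (pt (f y) y))
    (h : ∀ y ∈ OO C, gd V f 0 y = 0 ∧
      ∀ i : Fin n, gd V f i.succ y = -((n - 2) * (gv V f y / ‖y - c‖) * nn c i y)) :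
    ∃ M : ℝ, ∀ y ∈ OO C, V (pt (f y) y) = M / ‖y - c‖ ^ (n - 2) := by
  have h3 := Fact.out (p := 3 ≤ n)
  have hr : ∀ y ∈ OO C, 0 < ‖y - c‖ := fun y hy => norm_pos_iff.2 (sub_ne_zero.2 (hc y hy))
  have hpow : ∀ m : ℕ, ∀ y ∈ OO C, ∀ i, DP i (fun y : E n => ‖y - c‖ ^ m)
      (m * ‖y - c‖ ^ (m - 1) * nn c i y) y := by
    intro m y hy i
    have h0 := Rig.dp_rho (hc y hy) i
    have h1 := h0.1.hasFDerivAt.pow m
    refine ⟨h1.differentiableAt, ?_⟩
    unfold Vale.Agent.P366.pd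
    rw [h1.fderiv]
    have h2 : fderiv ℝ (fun y : E n => ‖y - c‖) y (EuclideanSpace.single i 1) = nn c i y := h0.2
    simp [h2]
  have hg : ∀ y ∈ OO C, ∀ i, DP i (fun y => gv V f y * ‖y - c‖ ^ (n - 2)) 0 y := by
    intro y hy i
    have hgv : DP i (gv V f) (gd V f i.succ y + pd i f y * gd V f 0 y) y :=
      ⟨cdd (Rig.cd_gv (hf y hy) (hV y hy)), Rig.pd_gv (hf y hy) (hV y hy) i⟩
    have h4 := hgv.mul (hpow (n - 2) y hy i)
    obtain ⟨a1, a2⟩ := h y hy
    have hry := (hr y hy).ne'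
    have : (gd V f i.succ y + pd i f y * gd V f 0 y) * ‖y - c‖ ^ (n - 2) +
        gv V f y * (((n - 2 : ℕ) : ℝ) * ‖y - c‖ ^ (n - 2 - 1) * nn c i y) = 0 := by
      rw [a1, a2 i]
      have e1 : ‖y - c‖ ^ (n - 2) = ‖y - c‖ ^ (n - 2 - 1) * ‖y - c‖ := by
        rw [← pow_succ]; congr 1; omega
      have e2 : ((n - 2 : ℕ) : ℝ) = (n : ℝ) - 2 := by
        rw [Nat.cast_sub (by omega)]; norm_num
      rw [e1, e2]
      field_simp
      ring
    rwa [this] at h4
  obtain ⟨M, hM⟩ := const_OO C (g := fun y => gv V f y * ‖y - c‖ ^ (n - 2))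
    (fun y hy => (hg y hy ⟨0, by omega⟩).1) (fun y hy i => (hg y hy i).2)
  refine ⟨M, fun y hy => ?_⟩
  have := hM y hy
  rw [eq_div_iff (pow_ne_zero _ (hr y hy).ne')]
  exact this

end Vale.Agent.P366.KSL.EqK
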