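import Vale.Agent.P366.H222.L.EqA

/-! The equality case: the covector field and the function `V` over a round null cone. -/

open MeasureTheory Metric Filter Topology Set
open scoped ContDiff ENNReal

noncomputable section
namespace Vale.Agent.P366.KSL.EqK

open Vale.Agent.P366 (pd E flux)
open Vale.Agent.P366.H353.N
open Vale.Agent.P366.Kerr (NullCone Psi pt sp indG indK sgn ksL ksG ein nul IsKS FutTimelike DECatL
  IsGraph IsSliceL HasDEC IsGradient schw IsSchwSlice)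
open Vale.Agent.P366.KSN (Y dts sg OO mem_OO isOpen_OO posU' U_smul Y_eq norm_smul_unit exists_unit
  ray_closed Y_cont)
open Vale.Agent.P366.KSN.X5 (DP cdd cd_pd)
open Vale.Agent.P366.KSL.Rig (nn lc gv gd)

variable {n : ℕ} {C : NullCone n} {l : Fin (n + 1) → E (n + 1) → ℝ} {V : E (n + 1) → ℝ}
  {f lam : E n → ℝ} {D : Stmt.Exterior n} {p : E (n + 1)} {x y c : E n} {s k : ℝ}

theorem OO_mem (hS : IsSliceL C l V f D) (hy : y ∈ OO C) : 0 ≤ D.F y := by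
  obtain ⟨x, s, hx, hs, rfl⟩ := mem_OO.mp hy
  exact (dom_iff hS.dom).2 ⟨x, s, hx, hs.le, rfl⟩

theorem lam_OO [Fact (3 ≤ n)] (hL : IsGradient C lam l f D)
    (hH : ∀ x, x ≠ 0 → C.H x = k * ‖x‖ + ∑ i, c i * x i) (hy : y ∈ OO C) :
    lam y = ‖y - c‖ - k := by
  obtain ⟨x, s, hx, hs, rfl⟩ := mem_OO.mp hy
  have h0 : 0 < s := (posU' C hx).trans hs
  have hx0 := ne_zero_of_one hx
  have h1 := hL.eqL (s • x) (smul_ne_zero h0.ne' hx0) (by
    rw [U_smul C hx0 h0, norm_smul_unit hx h0.le]; exact hs.le)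
  rw [Y_eq C hx h0, norm_smul_unit hx h0.le] at h1
  rw [h1, norm_cone hH hx hs.le]
  ring

theorem OO_ne [Fact (3 ≤ n)] (hH : ∀ x, x ≠ 0 → C.H x = k * ‖x‖ + ∑ i, c i * x i)
    (hy : y ∈ OO C) : y ≠ c := by
  obtain ⟨x, s, hx, hs, rfl⟩ := mem_OO.mp hy
  exact ne_c hH hx hs.le

/-- the gradient of `t + λ` at the points over the interior -/
theorem nul_OO [Fact (3 ≤ n)] (hL : IsGradient C lam l f D)
    (hH : ∀ x, x ≠ 0 → C.H x = k * ‖x‖ + ∑ i, c i * x i) (hp : sp p ∈ OO C) (a : Fin (n + 1)) :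
    Stmt.pd a (nul lam) p = lc c a p := by
  refine Fin.cases ?_ (fun i => ?_) a
  · rw [KSN.X2.pd_nul_zero]; rfl
  · rw [KSN.X2.pd_nul_succ]
    have h1 : lam =ᶠ[𝓝 (sp p)] fun y => ‖y - c‖ - k := by
      filter_upwards [(isOpen_OO C).mem_nhds hp] with z hz using lam_OO hL hH hz
    have h2 := (Rig.dp_rho (OO_ne hH hp) i).sub (DP.const (k := i) (y := sp p) k)
    have hd : DifferentiableAt ℝ lam (sp p) := h2.1.congr_of_eventuallyEq h1
    rw [KSN.stmt_pd hd, Vale.Agent.P366.pd_congr h1 i, h2.2, sub_zero]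
    rfl

theorem l_OO [Fact (3 ≤ n)] (hS : IsSliceL C l V f D) (hL : IsGradient C lam l f D)
    (hH : ∀ x, x ≠ 0 → C.H x = k * ‖x‖ + ∑ i, c i * x i) (hy : y ∈ OO C) (a : Fin (n + 1)) :
    l a =ᶠ[𝓝 (pt (f y) y)] lc c a := by
  have hc : ContinuousAt (sp : E (n + 1) → E n) (pt (f y) y) :=
    KSN.sp_contDiff.continuous.continuousAt
  have h1 : ∀ᶠ q in 𝓝 (pt (f y) y), sp q ∈ OO C :=
    hc.eventually ((isOpen_OO C).mem_nhds (by rw [KSN.sp_pt]; exact hy))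
  filter_upwards [hL.grad y (OO_mem hS hy), h1] with q hq h2
  rw [hq a, nul_OO hL hH h2]

theorem l_zero (hL : IsGradient C lam l f D) (hy : 0 ≤ D.F y) : l 0 (pt (f y) y) = 1 := by
  have h := (hL.grad y hy).self_of_nhds 0
  rw [h, KSN.X2.pd_nul_zero]

theorem tau_OO [Fact (3 ≤ n)] (hS : IsSliceL C l V f D) (hL : IsGradient C lam l f D)
    (hH : ∀ x, x ≠ 0 → C.H x = k * ‖x‖ + ∑ i, c i * x i) (hy : y ∈ OO C) :
    Rig.tau c f y ≠ 0 := by
  have h := tau_pos hS y (OO_mem hS hy)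
  have h1 : ∀ a, l a (pt (f y) y) = lc c a (pt (f y) y) := fun a =>
    (l_OO hS hL hH hy a).self_of_nhds
  simp only [h1, Rig.lc_zero, Rig.lc_succ, KSN.sp_pt] at h
  exact h.ne'

/-- the differential of `V` over the interior -/
theorem dV_OO [Fact (3 ≤ n)] (hS : IsSliceL C l V f D) (hL : IsGradient C lam l f D)
    (hH : ∀ x, x ≠ 0 → C.H x = k * ‖x‖ + ∑ i, c i * x i)
    (hG : ∀ y, 0 ≤ D.F y → ∀ a b, Gm l V a b (pt (f y) y) = 0) (hy : y ∈ OO C) :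
    gd V f 0 y = 0 ∧
      ∀ i : Fin n, gd V f i.succ y = -((n - 2) * (gv V f y / ‖y - c‖) * nn c i y) := by
  have h3 := Fact.out (p := 3 ≤ n)
  have hn : (3 : ℝ) ≤ (n : ℝ) := by exact_mod_cast h3
  refine Rig.rigL (O := OO C) (isOpen_OO C) (fun z hz => OO_ne hH hz)
    (fun z hz => hS.smf z (OO_mem hS hz)) (fun z hz => (hS.ks z (OO_mem hS hz)).smV)
    (fun z hz a => l_OO hS hL hH hz a) (fun z hz => tau_OO hS hL hH hz) (by linarith)
    (fun b z hz => ?_) y hy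
  have hz0 := OO_mem hS hz
  rw [div_Z hS.toIsGraph hz0 (ksg_of_grad hL hz0 (hS.ks z hz0)) b, hG z hz0]
  simp only [hG z hz0, mul_zero, Finset.sum_const_zero, sub_zero]

theorem V_OO [Fact (3 ≤ n)] (hS : IsSliceL C l V f D) (hL : IsGradient C lam l f D)
    (hH : ∀ x, x ≠ 0 → C.H x = k * ‖x‖ + ∑ i, c i * x i)
    (hG : ∀ y, 0 ≤ D.F y → ∀ a b, Gm l V a b (pt (f y) y) = 0) :
    ∃ M : ℝ, ∀ y ∈ OO C, V (pt (f y) y) = M / ‖y - c‖ ^ (n - 2) :=
  const_V (fun z hz => OO_ne hH hz) (fun z hz => hS.smf z (OO_mem hS hz))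
    (fun z hz => (hS.ks z (OO_mem hS hz)).smV) fun z hz => dV_OO hS hL hH hG hz

/-- equality of continuous functions extends to the boundary -/
theorem ext_OO (hS : IsSliceL C l V f D) {A B : E n → ℝ} (hA : ∀ y, 0 ≤ D.F y → ContinuousAt A y)
    (hB : ∀ y, 0 ≤ D.F y → ContinuousAt B y) (h : ∀ y ∈ OO C, A y = B y) (hy : 0 ≤ D.F y) :
    A y = B y := by
  obtain ⟨x, s, hx, hs, rfl⟩ := (dom_iff hS.dom).1 hy
  have hYc : ContinuousAt (Y C.H x) s := (Y_cont C.H x).continuousAt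
  have hc : ContinuousAt (fun t => A (Y C.H x t) - B (Y C.H x t)) s :=
    (ContinuousAt.comp (f := Y C.H x) (hA _ hy) hYc).sub
      (ContinuousAt.comp (f := Y C.H x) (hB _ hy) hYc)
  have := ray_closed (g := fun t => A (Y C.H x t) - B (Y C.H x t)) (c := 0) hc fun t ht => by
    have := h (Y C.H x t) (mem_OO.2 ⟨x, t, hx, lt_of_le_of_lt hs ht, rfl⟩)
    simp only [this, sub_self]
  linarith

theorem V_all [Fact (3 ≤ n)] (hS : IsSliceL C l V f D)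
    (hH : ∀ x, x ≠ 0 → C.H x = k * ‖x‖ + ∑ i, c i * x i) {M : ℝ}
    (h : ∀ y ∈ OO C, V (pt (f y) y) = M / ‖y - c‖ ^ (n - 2)) (hy : 0 ≤ D.F y) :
    V (pt (f y) y) = M / ‖y - c‖ ^ (n - 2) := by
  refine ext_OO hS (A := fun y => V (pt (f y) y)) (B := fun y => M / ‖y - c‖ ^ (n - 2))
    (fun z hz => ?_) (fun z hz => ?_) h hy
  · exact (Rig.cd_gv (hS.smf z hz) (hS.ks z hz).smV).continuousAt
  · obtain ⟨x, s, hx, hs, rfl⟩ := (dom_iff hS.dom).1 hz
    have h1 : 0 < ‖Y C.H x s - c‖ := norm_pos_iff.2 (sub_ne_zero.2 (ne_c hH hx hs))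
    refine ContinuousAt.div continuousAt_const ?_ (pow_ne_zero _ h1.ne')
    fun_prop

/-! ### the horizon -/

theorem dom_schw [Fact (3 ≤ n)] (hS : IsSliceL C l V f D)
    (hH : ∀ x, x ≠ 0 → C.H x = k * ‖x‖ + ∑ i, c i * x i) {u : ℝ}
    (hU : ∀ x, x ≠ 0 → C.U x = u) (hk : 0 < k + u) (y : E n) :
    0 ≤ D.F y ↔ k + u ≤ Stmt.len (y - c) := by
  rw [dom_iff hS.dom]
  unfold Stmt.len
  constructor
  · rintro ⟨x, s, hx, hs, rfl⟩
    rw [norm_cone hH hx hs]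
    rw [hU x (ne_zero_of_one hx)] at hs
    linarith
  · intro h
    have h0 : 0 < ‖y - c‖ := lt_of_lt_of_le hk h
    obtain ⟨x, hx, hxy⟩ := exists_unit (z := y - c) (norm_pos_iff.1 h0)
    refine ⟨x, ‖y - c‖ - k, hx, ?_, ?_⟩
    · rw [hU x (ne_zero_of_one hx)]; linarith
    · rw [Y_cone hH hx]
      have : k + (‖y - c‖ - k) = ‖y - c‖ := by ring
      rw [this, ← hxy, add_sub_cancel]

end Vale.Agent.P366.KSL.EqK
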